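import Vale.Agent.P011UGA.IF3
import Vale.Agent.P011UB.Iw

/-!
Brackets, the kernel of the adjoint representation, root vectors.
-/

set_option autoImplicit false
set_option linter.all false

namespace Vale.Agent.P011UK7

open Matrix Finset Vale.Agent.P011L Vale.Agent.P183CH Vale.Agent.P183CH.Chev
  Vale.Agent.P011U Vale.Agent.P011UC Vale.Agent.P011UGA

attribute [local instance 100] LieRing.ofAssociativeRing

theorem adM_apply {K : Type} [Field K] {n : ℕ} (X Y : Matrix (Fin n) (Fin n) K) :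
    adM X Y = X * Y - Y * X := rfl

theorem coef2 {F V : Type} [Field F] [Infinite F] [AddCommGroup V] [Module F V]
    (W : Submodule F V) (N : ℕ) (v : ℕ → ℕ → V)
    (h : ∀ t : F, ∑ a ∈ range (N + 2), ∑ b ∈ range (N + 2), t ^ (a + b) • v a b ∈ W) :
    v 1 0 + v 0 1 ∈ W := by
  by_contra hn
  obtain ⟨φ, h1, h2⟩ := W.exists_dual_map_eq_bot_of_notMem hn inferInstance
  have e : ∑ a ∈ range (N + 2), ∑ b ∈ range (N + 2), Polynomial.monomial (a + b) (φ (v a b)) = 0 :=
    Polynomial.funext fun t => by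
      have : φ _ ∈ W.map φ := Submodule.mem_map_of_mem (h t)
      rw [h2, Submodule.mem_bot, map_sum] at this
      simpa [Polynomial.eval_finset_sum, mul_comm] using this
  have := congrArg (Polynomial.coeff · 1) e
  simp only [Polynomial.finset_sum_coeff, Polynomial.coeff_monomial, Polynomial.coeff_zero] at this
  rw [sum_range_succ', sum_range_succ', sum_eq_zero (fun a _ => sum_eq_zero fun b _ =>
    if_neg (by omega)), sum_eq_single 0 (fun b _ e => if_neg (by omega)) (by simp),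
    sum_eq_single 1 (fun b _ e => if_neg (by omega)) (by simp)] at this
  exact h1 (by simpa using this)

variable {D : Chev} {K : Type} [Field K] {γ : D.Q}

theorem x_inv (h : γ ∈ D.R.Φ) (t : K) : ((GG D K).x γ t)⁻¹ = (GG D K).x γ (-t) :=
  Subtype.ext (by rw [Subgroup.coe_inv, GG_x (mem_Φ.1 h), GG_x (mem_Φ.1 h), DP.inv])

theorem ad_stab [Infinite K] (h : γ ∈ D.R.Φ) (W : Submodule K (D.Mat K))
    (hW : ∀ t, ∀ Y ∈ W, Ad ((GG D K).x γ t).1 Y ∈ W) : ∀ Y ∈ W, adM (ee D K γ) Y ∈ W := by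
  intro Y hY
  have := coef2 W D.n (fun a b => (-1 : K) ^ b • (ct K (D.EE γ a) * Y * ct K (D.EE γ b))) fun t => by
    have := hW t Y hY
    rw [Ad_apply, ← Subgroup.coe_inv, x_inv h, x_val h, x_val h, sum_mul, sum_mul_sum] at this
    refine (congrArg (· ∈ W) (sum_congr rfl fun a _ => sum_congr rfl fun b _ => ?_)).mp this
    rw [smul_mul_assoc, smul_mul_smul_comm, smul_smul, neg_pow t, pow_add]
    congr 1
    ring
  simpa [(mem_Φ.1 h).rh.dp.zero, adM_apply, sub_eq_add_neg] using this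

theorem ad_he (i : Fin D.r) (h : γ ∈ D.R.Φ) :
    adM (ct K (D.hm i)) (ee D K γ) = (D.R.pr γ i : K) • ee D K γ :=
  (lie_of_dg (Dg.ct (mem_Φ.1 h).rh.dg) i).trans (Int.cast_smul_eq_zsmul K _ _).symm

theorem ad_hh (i j : Fin D.r) : adM (ct K (D.hm i)) (ct K (D.hm j)) = 0 :=
  (lie_of_dg (Dg.ct (dg_h j)) i).trans (by simp)

theorem br_mem [Infinite K] (J : Set (Fin D.R.r)) :
    ∀ M ∈ lie D K J, ∀ N ∈ lie D K J, adM M N ∈ lie D K J := by
  intro M hM N hN
  refine Submodule.span_induction (p := fun M _ => adM M N ∈ lie D K J) ?_ ?_ ?_ ?_ hM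
  · rintro _ (⟨γ, hγ, j, rfl⟩ | ⟨i, rfl⟩)
    · exact ad_stab hγ _ (fun t => lie_ok D K J GG_ok _
        (Subgroup.mem_sup_left (Subgroup.subset_closure ⟨γ, j, hγ, t, rfl⟩))) N hN
    · refine (Submodule.span_le (p := (lie D K J).comap (adM (ct K (D.hm i))))).2 ?_ hN
      rintro _ (⟨γ, hγ, j, rfl⟩ | ⟨j, rfl⟩)
      · exact (congrArg (· ∈ lie D K J) (ad_he i hγ)).mpr
          (Submodule.smul_mem _ _ (lie_e (mem_Φ.1 hγ) j))
      · exact (congrArg (· ∈ lie D K J) (ad_hh i j)).mpr (zero_mem _)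
  · simp [adM_apply]
  · intro x y _ _ a b
    rw [adM_apply, add_mul, mul_add, add_sub_add_comm]
    exact add_mem a b
  · intro c x _ a
    rw [adM_apply, smul_mul_assoc, mul_smul_comm, ← smul_sub]
    exact Submodule.smul_mem _ _ a

theorem com_iff [CharZero K] (h : γ ∈ D.R.Φ) (Z : D.Mat K) :
    Commute Z (ee D K γ) ↔ ∀ t, Commute Z ((GG D K).x γ t).1.1 := by
  refine ⟨fun c t => ?_, fun c => ?_⟩
  · rw [x_val h]
    refine Commute.sum_right _ _ _ fun a _ => Commute.smul_right ?_ _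
    have e := (c.pow_right a).smul_right ((a.factorial : K)⁻¹)
    rwa [← map_pow, (mem_Φ.1 h).rh.dp.pow, map_nsmul, ← Nat.cast_smul_eq_nsmul K, smul_smul,
      inv_mul_cancel₀ (Nat.cast_ne_zero.2 a.factorial_ne_zero), one_smul] at e
  · haveI : Infinite K := .of_injective _ Nat.cast_injective
    exact coef_eq (F := K) (D.n + 2) (fun m => Z * ct K (D.EE γ m)) (fun m => ct K (D.EE γ m) * Z)
      (fun t => by simpa only [x_val h, mul_sum, sum_mul, mul_smul_comm, smul_mul_assoc]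
        using (c t).eq) (m := 1) (by omega)

theorem ker_Ad [CharZero K] (z : D.grp K) (h : ∀ M ∈ lg D K, Ad z.1 M = M) :
    z ^ D.R.A.det.natAbs = 1 ∧ ∀ x, Commute z x := by
  have hΓ : (GG D K).Ok := GG_ok
  have hR := R_ok D
  have h0 : ∀ γ ∈ D.R.Φ, ∀ t, (GG D K).x γ t * z = z * (GG D K).x γ t := fun γ m t => by
    have c : Commute z.1.1 (ee D K γ) := by
      have := congrArg (· * z.1.1) (h _ (lie_e (mem_Φ.1 m) (RS.In_univ γ)))
      simp only [Ad_apply, mul_assoc, Units.inv_mul, mul_one] at this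
      exact this
    exact Subtype.ext (Units.ext ((com_iff m _).1 c t).symm.eq)
  have h1 : ∀ g, z * g = g * z := fun g => (Subgroup.mem_centralizer_singleton_iff.1
    ((hΓ.gen.ge.trans ((Subgroup.closure_le (Subgroup.centralizer {z})).2 (by
      rintro _ ⟨i, t, rfl | rfl⟩
      · exact Subgroup.mem_centralizer_singleton_iff.2 (h0 _ (hR.simple i) t)
      · exact Subgroup.mem_centralizer_singleton_iff.2 (h0 _ (hR.neg_mem (hR.simple i)) t))))
      (Subgroup.mem_top g))).symm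
  have h2 : ∀ g, z * g * z⁻¹ = g := fun g => by rw [h1, mul_inv_cancel_right]
  have ht := P011UB.mem_T_of_nm hΓ hR (g := z) (fun u hu => by rwa [h2]) fun u hu => by rwa [h2]
  exact ⟨pow_natAbs_eq_one.2 (hΓ.det_chi hR ht fun i =>
    hΓ.chi_eq hR (hR.simple i) ht (c := 1) (h2 _)), h1⟩

theorem hT_ent (τ : Fin D.R.r → Kˣ) (X : D.Mat K) (a c : Fin D.n) : Ad (hT D K τ).1 X a c =
    ((∏ i, τ i ^ (D.μ i a - D.μ i c) : Kˣ) : K) * X a c := by
  rw [Ad_apply, ← Subgroup.coe_inv, ← map_inv, hT_val, hT_val, mul_diagonal, diagonal_mul,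
    mul_right_comm, ← Units.val_mul, ← prod_mul_distrib]
  simp only [Pi.inv_apply, _root_.inv_zpow', ← zpow_add, sub_eq_add_neg]

theorem hT_dg (τ : Fin D.R.r → Kˣ) {M : D.Mat K} (h : M ∈ D.Dg K γ) :
    Ad (hT D K τ).1 M = (rv τ γ : K) • M := by
  ext a b
  rw [hT_ent, Matrix.smul_apply, smul_eq_mul]
  by_cases e : M a b = 0
  · simp [e]
  · exact congrArg (fun x : Kˣ => (x : K) * M a b) (prod_congr rfl fun i _ =>
      congrArg (τ i ^ ·) (sub_eq_iff_eq_add'.2 (congrFun (h a b e) i)))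

theorem lka : LKA := fun D _ K _ _ _ => by
  haveI : Infinite K := .of_injective _ Nat.cast_injective
  refine ⟨br_mem, ⟨_, Int.natAbs_pos.2 (R_ok D).det, ker_Ad⟩, fun _ => com_iff, fun _ => ad_stab,
    fun i _ => ad_he i, fun i => ?_, fun γ h e => ?_, fun τ => ⟨fun i => ?_,
      fun γ h => hT_dg τ (Dg.ct (mem_Φ.1 h).rh.dg), fun X e => ?_⟩⟩
  · exact (ct_lie _ _).symm.trans (congrArg (ct K)
      ((congrArg₂ (fun E F : ℕ → D.Mat ℤ => ⁅E 1, F 1⁆) (EE_e i) (EE_f i)).trans (ef i)))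
  · exact one_ne_zero ((mem_Φ.1 h).rh.prim.eq_zero (k := K) ((one_smul _ _).trans e))
  · rw [hT_dg τ (Dg.ct (dg_h i))]
    simp [rv, RS.pr]
  · ext a c
    have := congrFun (congrFun e a) c
    rw [hT_ent, Matrix.sub_apply, hT_ent] at this
    rw [hT_ent]
    generalize ((∏ i, τ i ^ (D.μ i a - D.μ i c) : Kˣ) : K) = m at this
    have h : (m - 1) * ((m - 1) * X a c) = 0 := by linear_combination this
    rcases mul_eq_zero.1 h with h | h
    · rw [sub_eq_zero.1 h, one_mul]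
    · linear_combination h

end Vale.Agent.P011UK7
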